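import Vale.Agent.P283B.LS.Tw

/-!
# P283B, block LE: the engine by zero counting (definitions and statements, valued fields only)

The coordinate `k` is generic over the coordinates `i < k`.
-/

set_option linter.unusedVariables false

open Set
open IntermediateField (adjoin)

noncomputable section

namespace Vale.Agent.P283B.Zc

open Mono Ls

section defs

variable {Ω : Type} [Field Ω] [Algebra ℂ Ω]

/-- the algebraic closure of `ℂ (S)` -/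
def Ac (S : Set Ω) : Subfield Ω := acl (algebraMap ℂ Ω).fieldRange S

/-- the value of `z` is at least `l` -/
def vge (w : AbsoluteValue Ω ℝ) (z : Ω) (l : ℝ) : Prop := w z ≤ Real.exp (-l)

/-- the value of `z` is at most `l` -/
def vle (w : AbsoluteValue Ω ℝ) (z : Ω) (l : ℝ) : Prop := Real.exp (-l) ≤ w z

/-- `y` is the generic point over `M` of the disc with the centre `a` and the radius `r` -/
def Dc (w : AbsoluteValue Ω ℝ) (M : Subfield Ω) (y a : Ω) (r : ℝ) : Prop :=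
  a ∈ M ∧ ∀ b ∈ M, w (y - b) = max (w (a - b)) (Real.exp (-r))

open Classical in
/-- the radius of `y` over `M` -/
def rad (w : AbsoluteValue Ω ℝ) (M : Subfield Ω) (y : Ω) : ℝ :=
  if h : ∃ r a, Dc w M y a r then h.choose else 0

/-- `z` is a Gauss point over `M` -/
def Gs (w : AbsoluteValue Ω ℝ) (M : Subfield Ω) {ι : Type} (z : ι → Ω) : Prop :=
  (∀ i, z i ≠ 0) ∧ ∀ (p : MvPolynomial ι M) (m : ι →₀ ℕ),
    w (p.coeff m : M) * (m.prod fun i k => w (z i) ^ k) ≤ w (MvPolynomial.aeval z p)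

/-- the setting -/
structure Om (w : AbsoluteValue Ω ℝ) : Prop where
  na : IsNonarchimedean w
  c1 : ∀ c, c ≠ 0 → w (algebraMap ℂ Ω c) = 1
  rat : ∀ z, z ≠ 0 → ∃ q : ℚ, vl w z = q
  val : ∀ q : ℚ, ∃ b, b ≠ 0 ∧ vl w b = q
  gen : ∀ S : Set Ω, S.Finite → ∃ u, Dc w (Ac S) u 0 0
  twr : ∀ (S : Set Ω) (y : Ω), S.Finite → y ∉ Ac S → ∃ r a, Dc w (Ac S) y a r

/-- the field below the level `j` of the point `η` -/
def Bs {d : ℕ} (η : Fin d → Ω) (j : ℕ) : Subfield Ω := Ac (η '' {k | k.1 < j})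

/-- the radii of the point `η` -/
def ra (w : AbsoluteValue Ω ℝ) {d : ℕ} (η : Fin d → Ω) (k : Fin d) : ℝ := rad w (Bs η k) (η k)

/-- the sum of the radii below the level `j` -/
def as (w : AbsoluteValue Ω ℝ) {d : ℕ} (η : Fin d → Ω) (j : ℕ) : ℝ :=
  ∑ k ∈ Finset.univ.filter fun k : Fin d => k.1 < j, ra w η k

end defs

/-- a chart: rows of functions with generic coefficients and their values -/
structure Ct (K Ω : Type) (d : ℕ) where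
  A : Type
  fin : Fintype A
  row : A → Fin d
  f : A → K
  κ : A → Ω
  c : Fin d → Ω
  σ : Fin d → ℝ

attribute [instance] Ct.fin

/-- the data of the engine -/
structure Dt (K Ω : Type) [Field K] [Algebra ℂ K] [Field Ω] [Algebra ℂ Ω] (d : ℕ) where
  α : Fin d → K
  μ : Fin d → ℝ
  S : ℝ → Submodule ℂ K
  T : Finset (K × ℝ)
  σ : ℝ
  Ψ : (K →ₐ[ℂ] Ω) → ℝ
  j : ℕ
  x : K →ₐ[ℂ] Ω

section data

variable {K Ω : Type} [Field K] [Algebra ℂ K] [Field Ω] [Algebra ℂ Ω] {d : ℕ}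

/-- coordinates -/
structure Co (α : Fin d → K) : Prop where
  ind : AlgebraicIndependent ℂ α
  fin : FiniteDimensional (adjoin ℂ (range α)) K

/-- the field of the coordinates below `j` -/
def Lj (α : Fin d → K) (j : ℕ) : IntermediateField ℂ K := adjoin ℂ (α '' {k | k.1 < j})

/-- the same valuation on the field below `j` -/
def Iso (w : AbsoluteValue Ω ℝ) (α : Fin d → K) (j : ℕ) (x y : K →ₐ[ℂ] Ω) : Prop :=
  ∀ f ∈ Lj α j, w (x f) = w (y f)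

/-- the coefficients and the values of a chart of level `j` are generic -/
def Ct.Gen (w : AbsoluteValue Ω ℝ) (Z : Ct K Ω d) (j : ℕ) : Prop :=
  (∀ a, j ≤ (Z.row a).1) ∧
    Gs w (Bs Z.c j) (Sum.elim Z.κ fun i : {i : Fin d // j ≤ i.1} => Z.c i)

/-- the sheets of a chart of level `j` -/
def Ct.Sh (Z : Ct K Ω d) (α : Fin d → K) (j : ℕ) (x : K →ₐ[ℂ] Ω) : Prop :=
  (∀ k : Fin d, k.1 < j → x (α k) = Z.c k) ∧ ∀ i : Fin d, j ≤ i.1 →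
    ∑ a ∈ Finset.univ.filter fun a => Z.row a = i, Z.κ a * x (Z.f a) = Z.c i

/-- the sizes of a chart of level `j` -/
def Ct.Sz (w : AbsoluteValue Ω ℝ) (Z : Ct K Ω d) (S : ℝ → Submodule ℂ K) (j : ℕ) (R : ℝ) : Prop :=
  (∀ a, Z.f a ∈ S (Z.σ (Z.row a)) ∧ |vl w (Z.κ a)| ≤ R * Z.σ (Z.row a)) ∧
    ∀ i : Fin d, j ≤ i.1 → 0 < Z.σ i ∧ |vl w (Z.c i)| ≤ R * Z.σ i

/-- a new row -/
def Ct.ext (Z : Ct K Ω d) (c : Fin d) {B : Type} [Fintype B] (g : B → K) (κ : B → Ω) (v : Ω)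
    (σ : ℝ) : Ct K Ω d where
  A := Z.A ⊕ B
  fin := inferInstance
  row := Sum.elim Z.row fun _ => c
  f := Sum.elim Z.f g
  κ := Sum.elim Z.κ κ
  c := Function.update Z.c c v
  σ := Function.update Z.σ c σ

/-- the product over the levels from `j` on -/
def pr (a : Fin d → ℝ) (j : ℕ) : ℝ := ∏ i ∈ Finset.univ.filter fun i : Fin d => j ≤ i.1, a i

variable (w : AbsoluteValue Ω ℝ) (D : Dt K Ω d)

/-- the coordinates of a point -/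
def Dt.co (x : K →ₐ[ℂ] Ω) : Fin d → Ω := fun k => x (D.α k)

/-- central points -/
def Dt.Cen (x : K →ₐ[ℂ] Ω) : Prop := ∀ p ∈ D.T, vge w (x p.1) (p.2 - D.σ / 2)

/-- good points -/
def Dt.Gd (x : K →ₐ[ℂ] Ω) (s : ℝ) : Prop :=
  D.Ψ x ≤ s ∧ ∀ f ∈ Lj D.α D.j, f ≠ 0 → w (x f) = 1

/-- the axioms on sizes -/
structure Ez (C : ℝ) : Prop where
  co : Co D.α
  pos : ∀ k, 0 < D.μ k
  mono : Monotone D.μ
  smono : Monotone D.S
  one : (1 : K) ∈ D.S 0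
  mul : ∀ a b f g, f ∈ D.S a → g ∈ D.S b → f * g ∈ D.S (a + b)
  mem : ∀ k, D.α k ∈ D.S (D.μ k)
  fr : ∀ f : K, ∃ l a b, a ∈ D.S l ∧ b ∈ D.S l ∧ b ≠ 0 ∧ f = a / b
  low : ∀ x l g, D.Cen w x → 0 ≤ l → g ∈ D.S l → vge w (x g) (-2 * l)
  dim : ∀ M : ℝ, 1 ≤ M → ∃ l₀, ∀ l, l₀ ≤ l → ∃ (n : ℕ) (π : D.S l →ₗ[ℂ] Fin n → ℂ),
    n * ∏ k, D.μ k ≤ C * (M * l) ^ d ∧ ∀ g, π g = 0 → ∀ x, D.Cen w x → vge w (x g) (M * l)

/-- the axioms of the engine -/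
structure Eg (C sm μm : ℝ) : Prop extends Ez w D C where
  σ0 : 0 < D.σ
  tst : ∀ p ∈ D.T, p.1 ≠ 0 ∧ p.1 ∈ D.S D.σ ∧ |p.2| ≤ D.σ
  nn : ∀ x, 0 ≤ D.Ψ x
  gc : ∀ x, D.Ψ x ≤ sm → ∀ p ∈ D.T, vge w (x p.1) (p.2 - D.σ / 4)
  up : ∀ x s l g, D.Ψ x ≤ s → s ≤ sm → 0 ≤ l → g ∈ D.S l → g ≠ 0 →
    vl w (x g) ≤ C * (1 + s) * (vl w (D.x g) + l)
  lu : ∀ (c : Fin d) (y : K →ₐ[ℂ] Ω) (R φ : ℝ) (m : ℕ), D.j ≤ c.1 → 0 < m → 0 ≤ R → 0 ≤ φ →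
    as w (D.co y) (c + 1) ≤ R * D.μ c → (∀ x, Iso w D.α (c + 1) x y → φ ≤ D.Ψ x) →
    ∃ G : Finset (K × ℝ), (∀ p ∈ G, p.1 ≠ 0 ∧ p.1 ∈ D.S (C * (1 + R) * m * D.μ c) ∧
        |p.2| ≤ C * (1 + R) * m * D.μ c) ∧
      (∀ x, D.Cen w x → ∀ p ∈ G, vge w (x p.1) (p.2 + m * (as w (D.co x) (c + 1) - D.Ψ x) -
        as w (D.co x) (c + 1) - C * D.μ c)) ∧
      ∀ x, D.Cen w x → Iso w D.α (c + 1) x y → ∃ p ∈ G,
        vle w (x p.1) (p.2 + m * (as w (D.co y) (c + 1) - φ) + C * D.μ c)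
  st : D.Gd w D.x 0
  sa : ∀ c : Fin d, D.j ≤ c.1 → as w (D.co D.x) (c + 1) ≤ C * D.μ c
  long : ∀ c : Fin d, D.j ≤ c.1 → μm ≤ D.μ c

end data

/-- a statement for all settings -/
def ForO (A : ∀ (Ω : Type) [Field Ω] [Algebra ℂ Ω], AbsoluteValue Ω ℝ → Prop) : Prop :=
  ∀ (Ω : Type) [Field Ω] [Algebra ℂ Ω] [IsAlgClosed Ω] (w : AbsoluteValue Ω ℝ), Om w → A Ω w

/-- a statement for all data; the bounds `s` and `μ` may be replaced by larger ones -/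
def ForD (d : ℕ) (C s μ : ℝ) (A : ∀ (K Ω : Type) [Field K] [Algebra ℂ K] [Field Ω] [Algebra ℂ Ω],
    AbsoluteValue Ω ℝ → Dt K Ω d → Prop) : Prop :=
  ∀ sm μm, s ≤ sm → μ ≤ μm → ForO fun Ω _ _ w => ∀ (K : Type) [Field K] [Algebra ℂ K]
    (D : Dt K Ω d), Eg w D C sm μm → A K Ω w D

/-- **ENGINE** -/
def ENGINE : Prop := ∀ (d : ℕ) (C G : ℝ), 1 ≤ C → ∃ s μ : ℝ, 0 ≤ s ∧
  ForD d C s μ fun K _ _ _ _ _ w D => ∃ x g, D.Ψ x ≤ s ∧ 0 < g ∧ G ≤ g ∧ G * D.Ψ x ≤ g ∧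
    ∀ f : K, f ≠ 0 → ∃ z : ℤ, vl w (x f) = z * g

/-- a statement for all curves over a subfield `k` of the closed field `Ac S` -/
def ForC (A : ∀ (Ω : Type) [Field Ω] [Algebra ℂ Ω], AbsoluteValue Ω ℝ → Set Ω →
    ∀ (k L : Type) [Field k] [Field L] [Algebra k L] [Algebra k Ω], L → Prop) : Prop :=
  ForO fun Ω _ _ w => ∀ (S : Set Ω) (k L : Type) [Field k] [Field L] [Algebra k L] [Algebra k Ω]
    (y : L), S.Finite → (∀ a, algebraMap k Ω a ∈ Ac S) → Transcendental k y →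
    FiniteDimensional (adjoin k {y}) L → A Ω w S k L y

/-- `X` is the fibre of `y` over `η` -/
def Fb {k L Ω : Type} [Field k] [Field L] [Field Ω] [Algebra k L] [Algebra k Ω]
    (X : Finset (L →ₐ[k] Ω)) (y : L) (η : Ω) : Prop := ∀ σ, σ ∈ X ↔ σ y = η

/-- **GAU**: discs and Gauss points -/
structure GAU (Ω : Type) [Field Ω] [Algebra ℂ Ω] (w : AbsoluteValue Ω ℝ) : Prop where
  rad : ∀ (M : Subfield Ω) y a r, Dc w M y a r → rad w M y = r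
  tr : ∀ (S : Set Ω) y a r, Dc w (Ac S) y a r → Transcendental (Ac S) y
  pol : ∀ (S : Set Ω) y a r (p : Polynomial Ω), Dc w (Ac S) y a r → (∀ i, p.coeff i ∈ Ac S) →
    w (p.eval y) = (Polynomial.taylor a p).gaussNorm w (Real.exp (-r))
  ex : ∀ (S : Set Ω) a (r : ℚ), S.Finite → a ∈ Ac S → ∃ y, Dc w (Ac S) y a r
  exs : ∀ (S : Set Ω) (ι : Type) [Fintype ι] (q : ι → ℚ), S.Finite →
    ∃ z : ι → Ω, Gs w (Ac S) z ∧ ∀ i, vl w (z i) = q i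
  mono : ∀ (M N : Subfield Ω) (ι : Type) (z : ι → Ω), M ≤ N → Gs w N z → Gs w M z
  cmp : ∀ (M : Subfield Ω) (ι ι' : Type) (z : ι → Ω) (e : ι' → ι), Function.Injective e →
    Gs w M z → Gs w M (z ∘ e)
  ind : ∀ (M : Subfield Ω) (ι : Type) (z : ι → Ω), Gs w M z → AlgebraicIndependent M z
  sum : ∀ (S : Set Ω) (ι ι' : Type) (z : ι → Ω) (z' : ι' → Ω), Gs w (Ac S) z →
    Gs w (Ac (S ∪ range z)) z' → Gs w (Ac S) (Sum.elim z z')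
  spl : ∀ (S : Set Ω) (ι ι' : Type) (z : ι → Ω) (z' : ι' → Ω), Gs w (Ac S) (Sum.elim z z') →
    Gs w (Ac (S ∪ range z)) z'
  one : ∀ (S : Set Ω) y, y ≠ 0 → (Gs w (Ac S) (fun _ : Unit => y) ↔ Dc w (Ac S) y 0 (vl w y))
  sym : ∀ (S : Set Ω) (ι : Type) (z : ι → Ω) y a r, Dc w (Ac S) y a r →
    Gs w (Ac (insert y S)) z → Dc w (Ac (S ∪ range z)) y a r
  lin : ∀ (M : Subfield Ω) (ι : Type) [Fintype ι] (z b : ι → Ω) (i : ι), Gs w M z →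
    (∀ i, b i ∈ M) → w (z i * b i) ≤ w (∑ i, z i * b i)
  per : ∀ (M : Subfield Ω) (ι : Type) (z z' : ι → Ω), Gs w M z →
    (∀ i, w (z' i - z i) < w (z i)) → Gs w M z'
  iso : ∀ (S : Set Ω) (ι : Type) (z z' : ι → Ω), Gs w (Ac S) z → Gs w (Ac S) z' →
    (∀ i, w (z i) = w (z' i)) → ∃ φ : adjoin (Ac S) (range z) →ₐ[Ac S] Ω,
      (∀ i, φ ⟨z i, IntermediateField.subset_adjoin _ _ ⟨i, rfl⟩⟩ = z' i) ∧ ∀ f, w (φ f) = w f
  dis : ∀ (K : Type) [Field K] [Algebra ℂ K] (d : ℕ) (α : Fin d → K) (c : Fin d)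
    (x y : K →ₐ[ℂ] Ω) a r, (∀ k, k < c → x (α k) = y (α k)) →
    Dc w (Bs (fun k => y (α k)) c) (x (α c)) a r → Dc w (Bs (fun k => y (α k)) c) (y (α c)) a r →
    Iso w α (c + 1) x y
  pt : ∀ (K : Type) [Field K] [Algebra ℂ K] (d : ℕ) (α : Fin d → K) (c : Fin d)
    (x : K →ₐ[ℂ] Ω) a (r : ℚ), Co α → a ∈ Bs (fun k => x (α k)) c → ∃ y : K →ₐ[ℂ] Ω,
    (∀ k, k < c → y (α k) = x (α k)) ∧ Dc w (Bs (fun k => x (α k)) c) (y (α c)) a r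
  dc : ∀ (K : Type) [Field K] [Algebra ℂ K] (d : ℕ) (α : Fin d → K) (c : Fin d)
    (x : K →ₐ[ℂ] Ω), Co α →
    ∃ a, Dc w (Bs (fun k => x (α k)) c) (x (α c)) a (ra w (fun k => x (α k)) c)
  isr : ∀ (K : Type) [Field K] [Algebra ℂ K] (d : ℕ) (α : Fin d → K) (c : Fin d)
    (x y : K →ₐ[ℂ] Ω), Co α → Iso w α (c + 1) x y →
    ra w (fun k => x (α k)) c = ra w (fun k => y (α k)) c

/-- leaf -/
def SGAU : Prop := ForO fun Ω _ _ w => GAU Ω w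

/-- **FIB**: the fibres are finite -/
def FIB : Prop := ∀ (k L Ω : Type) [Field k] [Field L] [Field Ω] [Algebra k L] [Algebra k Ω]
  [IsAlgClosed Ω] [CharZero k] (y : L) (η : Ω), Transcendental k y →
  FiniteDimensional (adjoin k {y}) L → Transcendental k η →
  (∃ X : Finset (L →ₐ[k] Ω), X.Nonempty ∧ Fb X y η) ∧
    ∀ T : L, Transcendental k T → FiniteDimensional (adjoin k {T}) L

/-- **DD**: the double difference of the Gauss values of a plane curve -/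
def DD : Prop := ForC fun Ω _ _ w S k L _ _ _ _ y => ∀ (T : L) (η a c : Bool → Ω)
  (r θ : Bool → ℝ) (X Y : Bool → Finset (L →ₐ[k] Ω)), Transcendental k T →
  (∀ i, Dc w (Ac S) (η i) (a i) (r i) ∧ Fb (X i) y (η i)) →
  (∀ i, Dc w (Ac S) (c i) 0 (θ i) ∧ Fb (Y i) T (c i)) →
  ∑ σ ∈ X true, (mv w (σ T) (θ true) - mv w (σ T) (θ false)) -
    ∑ σ ∈ X false, (mv w (σ T) (θ true) - mv w (σ T) (θ false)) =
  ∑ σ ∈ Y true, (mv w (σ y - a true) (r true) - mv w (σ y - a false) (r false)) -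
    ∑ σ ∈ Y false, (mv w (σ y - a true) (r true) - mv w (σ y - a false) (r false))

/-- **CONT**: the sum over the fibre of the minimum of finitely many values is continuous -/
def CONT : Prop := ForC fun Ω _ _ w S k L _ _ _ _ T => ∀ (ι J : Type) [Fintype ι] [Nonempty ι]
  [Fintype J] (g : J → L) (b : ι → J → Ω), (∀ i j, b i j ∈ Ac S) → ∃ F : ℝ → ℝ, Continuous F ∧
    ∀ (θ : ℝ) (c : Ω) (X : Finset (L →ₐ[k] Ω)), Dc w (Ac S) c 0 θ → Fb X T c →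
      (∀ σ ∈ X, ∃ i, ∑ j, b i j * σ (g j) ≠ 0) →
      ∑ σ ∈ X, Real.log (⨆ i, w (∑ j, b i j * σ (g j))) = F θ

open Classical in
/-- **NC**: the zeros which are not central do not depend on the value -/
def NC : Prop := ForC fun Ω _ _ w S k L _ _ _ _ y => ∀ (B : Type) [Fintype B] (g : B → L)
  (κ : B → Ω) (c : Bool → Ω) (a : Ω) (r₁ r₂ : ℚ) (Y : Bool → Finset (L →ₐ[k] Ω)), a ∈ Ac S →
  (∀ i, Gs w (Ac S) (fun o : Option B => o.elim (c i) κ) ∧ w (c i) ≤ 1) →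
  (∀ i σ, σ ∈ Y i ↔ ∑ b, κ b * σ (g b) = c i) →
  ∑ σ ∈ Y true with ∃ b, 1 < w (κ b * σ (g b)), (mv w (σ y - a) r₁ - mv w (σ y - a) r₂) =
    ∑ σ ∈ Y false with ∃ b, 1 < w (κ b * σ (g b)), (mv w (σ y - a) r₁ - mv w (σ y - a) r₂)

/-- **ZC0**: zero counting on a curve -/
def ZC0 : Prop := ForC fun Ω _ _ w S k L _ _ _ _ y => ∀ (B : Type) [Fintype B] (g : B → L)
  (θ : B → ℚ) (β r₂ : ℚ) (η a₁ a₂ : Ω) (r₁ : ℝ) (X : Finset (L →ₐ[k] Ω)), 0 < β →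
  Dc w (Ac S) η a₁ r₁ → a₂ ∈ Ac S →
  (∀ σ : L →ₐ[k] Ω, Dc w (Ac S) (σ y) a₂ r₂ → ∃ b, vle w (σ (g b)) (θ b)) →
  (∀ σ ∈ X, σ y = η ∧ ∀ b, vge w (σ (g b)) (θ b + β)) →
  ∃ (κ : B → Ω) (c : Bool → Ω) (Y : Bool → Finset (L →ₐ[k] Ω)), (∀ b, vl w (κ b) = -θ b) ∧
    vl w (c true) = β ∧ vl w (c false) = 0 ∧
    (∀ i, Gs w (Ac S) fun o : Option B => o.elim (c i) κ) ∧
    (∀ i, ∀ σ ∈ Y i, ∑ b, κ b * σ (g b) = c i ∧ ∀ b, vge w (σ (g b)) (θ b)) ∧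
    (∀ σ ∈ Y true, vge w (σ y - a₁) (mv w (a₁ - a₂) (min r₁ r₂))) ∧
    X.card * (β : ℝ) ≤ (r₁ - mv w (a₁ - a₂) (min r₁ r₂)) * (Y true).card +
      (r₂ - mv w (a₁ - a₂) (min r₁ r₂)) * (Y false).card

/-- **ZC**: zero counting for charts -/
def ZC : Prop := ForO fun Ω _ _ w => ∀ (K : Type) [Field K] [Algebra ℂ K] (d : ℕ) (α : Fin d → K)
  (c : Fin d) (Z : Ct K Ω d) (B : Type) [Fintype B] (g : B → K) (θ : B → ℚ) (β r₂ : ℚ)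
  (a₁ a₂ : Ω) (r₁ σ : ℝ) (X : Finset (K →ₐ[ℂ] Ω)), Co α → Z.Gen w (c + 1) → 0 < β →
  Dc w (Bs Z.c c) (Z.c c) a₁ r₁ → a₂ ∈ Bs Z.c c →
  (∀ x : K →ₐ[ℂ] Ω, (∀ k, k < c → x (α k) = Z.c k) → Dc w (Bs Z.c c) (x (α c)) a₂ r₂ →
    ∃ b, vle w (x (g b)) (θ b)) →
  (∀ x ∈ X, Z.Sh α (c + 1) x ∧ ∀ b, vge w (x (g b)) (θ b + β)) →
  ∃ (κ : B → Ω) (v : Bool → Ω) (Y : Bool → Finset (K →ₐ[ℂ] Ω)), (∀ b, vl w (κ b) = -θ b) ∧
    vl w (v true) = β ∧ vl w (v false) = 0 ∧ (∀ i, (Z.ext c g κ (v i) σ).Gen w c) ∧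
    (∀ i, ∀ x ∈ Y i, (Z.ext c g κ (v i) σ).Sh α c x ∧ ∀ b, vge w (x (g b)) (θ b)) ∧
    (∀ x ∈ Y true, vge w (x (α c) - a₁) (mv w (a₁ - a₂) (min r₁ r₂))) ∧
    X.card * (β : ℝ) ≤ (r₁ - mv w (a₁ - a₂) (min r₁ r₂)) * (Y true).card +
      (r₂ - mv w (a₁ - a₂) (min r₁ r₂)) * (Y false).card

/-- **CNT**: the number of central sheets -/
def CNT : Prop := ∀ (d : ℕ) (C R : ℝ), 1 ≤ C → 0 ≤ R → ∃ C' : ℝ, 0 < C' ∧ ForO fun Ω _ _ w =>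
  ∀ (K : Type) [Field K] [Algebra ℂ K] (D : Dt K Ω d) (Z : Ct K Ω d) (j : ℕ)
    (X : Finset (K →ₐ[ℂ] Ω)), Ez w D C → Z.Gen w j → Z.Sz w D.S j R →
    (∀ k : Fin d, k.1 < j → ra w Z.c k ≤ R * D.μ k) → (∀ x ∈ X, Z.Sh D.α j x ∧ D.Cen w x) →
    X.card * pr D.μ j ≤ C' * pr Z.σ j

/-- the isometric conjugates of `a` are `ν` in number and at distances larger than `s` -/
def Cls {Ω : Type} [Field Ω] (w : AbsoluteValue Ω ℝ) (F : Subfield Ω) (a : Ω) (ν : ℕ) (s : ℝ) :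
    Prop := 0 < ν ∧ (∀ z : adjoin F {a}, ∃ b ∈ F, w z ^ ν = w b) ∧
  ∃ φ : Fin ν → (adjoin F {a} →ₐ[F] Ω), (∀ i z, w (φ i z) = w z) ∧ ∀ i l, i ≠ l →
    s < w (φ i ⟨a, IntermediateField.mem_adjoin_simple_self F a⟩ -
      φ l ⟨a, IntermediateField.mem_adjoin_simple_self F a⟩)

/-- **MUL**: conjugates of points and of discs -/
def MUL : Prop := ForO fun Ω _ _ w => ∀ (F : Subfield Ω) (a : Ω), IsAlgebraic F a →
  (∃ ν, Cls w F a ν 0) ∧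
    ∀ s : ℝ, 0 < s → ∃ a' ν, IsAlgebraic F a' ∧ w (a' - a) ≤ s ∧ Cls w F a' ν s

/-- the field generated by the coordinates below `j` -/
def Fj {Ω : Type} [Field Ω] [Algebra ℂ Ω] {d : ℕ} (η : Fin d → Ω) (j : ℕ) : Subfield Ω :=
  (adjoin ℂ (η '' {k | k.1 < j})).toSubfield

/-- **TRANS**: isometries of the base move the sheets -/
def TRANS : Prop := ForO fun Ω _ _ w => ∀ (K : Type) [Field K] [Algebra ℂ K] (d : ℕ)
  (α : Fin d → K) (j : ℕ) (Z : Ct K Ω d) (a : Ω) (φ : adjoin (Fj Z.c j) {a} →ₐ[Fj Z.c j] Ω)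
  (X : Finset (K →ₐ[ℂ] Ω)), Co α → Z.Gen w j → IsAlgebraic (Fj Z.c j) a →
  (∀ z, w (φ z) = w z) → (∀ x ∈ X, Z.Sh α j x) → ∃ X' : Finset (K →ₐ[ℂ] Ω), X'.card = X.card ∧
    ∀ x' ∈ X', Z.Sh α j x' ∧ ∃ x ∈ X, ∀ f z, w (x' f - φ z) = w (x f - z)

/-- **RAD**: the radii of good points -/
def RAD (d : ℕ) (C : ℝ) : Prop := ∀ s : ℝ, 0 ≤ s → ∃ R : ℝ, 0 ≤ R ∧
  ForD d C s 1 fun _ _ _ _ _ _ w D => ∀ x, D.Gd w x s → ∀ k, |ra w (D.co x) k| ≤ R * D.μ k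

/-- **SS**: a chart with many good sheets; for `e = true` they lie near the disc of the level `j` -/
def SS (d : ℕ) (C : ℝ) (j : ℕ) (e : Bool) : Prop := ∀ s R₀ : ℝ, 0 ≤ s → 0 ≤ R₀ →
  ∃ κ E R μ : ℝ, 0 < κ ∧ 0 ≤ E ∧ 0 ≤ R ∧ ForD d C s μ fun K Ω _ _ _ _ w D => D.j ≤ j →
    ∀ x, D.Gd w x s → ∀ (B : Type) [Fintype B] (g : B → K) (θ σ : B → ℝ) (ν : ℝ),
    (∀ b, 0 < σ b ∧ g b ∈ D.S (σ b) ∧ |θ b| ≤ R₀ * σ b ∧ vge w (x (g b)) (θ b)) → 0 < ν →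
    (∀ i : Fin d, j ≤ i.1 → ν ≤ D.μ i) → ∃ (Z : Ct K Ω d) (X : Finset (K →ₐ[ℂ] Ω)),
      Z.Gen w j ∧ Z.Sz w D.S j R ∧ (∀ k : Fin d, k.1 < j → Z.c k = x (D.α k)) ∧
      κ * pr Z.σ j ≤ X.card * pr D.μ j ∧ ∀ y ∈ X, Z.Sh D.α j y ∧ D.Cen w y ∧
        (∀ b, vge w (y (g b)) (θ b - E * σ b / ν)) ∧ (e = true → ∀ c : Fin d, c.1 = j →
          vge w (y (D.α c) - x (D.α c)) (ra w (D.co x) c - E))

/-- **KEY**: a centre of bounded ramification near the disc -/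
def KEY (d : ℕ) (C : ℝ) (c : Fin d) : Prop := ∀ s : ℝ, 0 ≤ s → ∃ (E μ : ℝ) (N : ℕ), 0 ≤ E ∧
  ForD d C s μ fun _ _ _ _ _ _ w D => D.j ≤ c.1 → ∀ x, D.Gd w x s → ∃ (a : _) (ν : ℕ),
    a ∈ Bs (D.co x) c ∧ vge w (x (D.α c) - a) (ra w (D.co x) c - E) ∧ 0 < ν ∧ ν ≤ N ∧
      ∀ z : adjoin (Fj (D.co x) c) {a}, ∃ b ∈ Fj (D.co x) c, w z ^ ν = w b

/-- **LIP**: good points over a disc nearby -/
def LIP (d : ℕ) (C : ℝ) (c : Fin d) : Prop := ∀ s δ : ℝ, 0 ≤ s → 0 ≤ δ → ∃ s' μ : ℝ, s ≤ s' ∧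
  ForD d C s μ fun _ _ _ _ _ _ w D => D.j ≤ c.1 → ∀ x, D.Gd w x s → ∀ a (r : ℚ),
    a ∈ Bs (D.co x) c → vge w (x (D.α c) - a) (ra w (D.co x) c - δ) →
    |r - ra w (D.co x) c| ≤ δ → ∃ y x', (∀ k, k < c → y (D.α k) = x (D.α k)) ∧
      Dc w (Bs (D.co x) c) (y (D.α c)) a r ∧ Iso w D.α (c + 1) x' y ∧ D.Gd w x' s'

/-- **END**: the ramification at good points -/
def END (d : ℕ) (C : ℝ) : Prop := ∀ s : ℝ, 0 ≤ s → ∃ N : ℕ,
  ForD d C s 1 fun K _ _ _ _ _ w D => ∀ x, D.Gd w x s → ∃ ν : ℕ, 0 < ν ∧ ν ≤ N ∧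
    ∀ f : K, ∃ b ∈ Lj D.α d, w (x f) ^ ν = w (x b)

/-- leaf -/
def SDD : Prop := SGAU → FIB → DD

/-- leaf -/
def SCONT : Prop := SGAU → FIB → CONT

/-- leaf -/
def SNC : Prop := SGAU → FIB → CONT → NC

/-- leaf -/
def SZC0 : Prop := SGAU → FIB → DD → NC → ZC0

/-- leaf -/
def SZC : Prop := SGAU → ZC0 → ZC

/-- leaf -/
def SCNT : Prop := SGAU → CNT

/-- leaf -/
def STRANS : Prop := SGAU → TRANS

/-- leaf -/
def SRAD : Prop := SGAU → ∀ d C, 1 ≤ C → RAD d C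

/-- leaf -/
def STEP : Prop := SGAU → ZC → ∀ d C, 1 ≤ C → RAD d C → SS d C d false ∧
  ∀ c : Fin d, SS d C (c + 1) false → SS d C c true

/-- leaf -/
def SKEY : Prop := SGAU → CNT → MUL → TRANS → ∀ d C (c : Fin d), 1 ≤ C → RAD d C →
  SS d C c true → KEY d C c

/-- leaf -/
def SLIP : Prop := SGAU → ZC → CNT → ∀ d C (c : Fin d), 1 ≤ C → RAD d C →
  SS d C (c + 1) false → LIP d C c

/-- leaf -/
def SEND : Prop := SGAU → CNT → MUL → ∀ d C, 1 ≤ C → RAD d C → END d C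

/-- leaf -/
def ROUNDS : Prop := SGAU → (∀ d C, 1 ≤ C → END d C ∧ ∀ c, KEY d C c ∧ LIP d C c) → ENGINE

theorem SS.weak {d j : ℕ} {C : ℝ} (h : SS d C j true) : SS d C j false := fun s R₀ a b => by
  obtain ⟨κ, E, R, μ, h1, h2, h3, H⟩ := h s R₀ a b
  refine ⟨κ, E, R, μ, h1, h2, h3, fun sm μm p q Ω _ _ _ w o K _ _ D eg jl x gd B _ g θ σ ν t n m => ?_⟩
  obtain ⟨Z, X, z1, z2, z3, z4, z5⟩ := H sm μm p q Ω w o K D eg jl x gd B g θ σ ν t n m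
  exact ⟨Z, X, z1, z2, z3, z4, fun y hy => ⟨(z5 y hy).1, (z5 y hy).2.1, (z5 y hy).2.2.1, by simp⟩⟩

theorem engine_of (ga : SGAU) (fi : FIB) (dd : SDD) (co : SCONT) (nc : SNC) (z0 : SZC0) (zc : SZC)
    (cn : SCNT) (mu : MUL) (tr : STRANS) (ra : SRAD) (st : STEP) (ke : SKEY) (li : SLIP)
    (en : SEND) (ro : ROUNDS) : ENGINE := by
  have Z := zc ga (z0 ga fi (dd ga fi) (nc ga fi (co ga fi)))
  refine ro ga fun d C hC => ⟨en ga (cn ga) mu d C hC (ra ga d C hC), fun c => ?_⟩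
  obtain ⟨s0, s1⟩ := st ga Z d C hC (ra ga d C hC)
  have : ∀ k, k ≤ d → SS d C (d - k) false := fun k => by
    induction k with
    | zero => exact fun _ => s0
    | succ k ih =>
      intro h
      have e : d - k = d - (k + 1) + 1 := by omega
      exact (s1 ⟨d - (k + 1), by omega⟩ (e ▸ ih (by omega))).weak
  have u : SS d C (c + 1) false := by
    have := this (d - (c + 1)) (by omega)
    rwa [show d - (d - (c + 1)) = c + 1 by omega] at this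
  exact ⟨ke ga (cn ga) mu (tr ga) d C c hC (ra ga d C hC) (s1 c u),
    li ga Z (cn ga) d C c hC (ra ga d C hC) u⟩

end Vale.Agent.P283B.Zc
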